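import Mathlib
import Vale.Agent.P147.Axis

/-!
# P147: where the directional zero-one law fails, the walk moves along one axis
-/

namespace Vale.Agent.Results.P147.AxisDichotomy

open MeasureTheory Filter Vale.Agent.P147
open scoped ENNReal Topology

theorem result (d : ℕ) (hd : 3 ≤ d) (μ : Measure (Row d)) [IsProbabilityMeasure μ]
    (hμ : Elliptic μ) :
    (∃ P, IsAnnealed μ P) ∧ ∀ P, IsAnnealed μ P →
      (∀ l : Fin d → ℝ, l ≠ 0 → P (Up (height l)) ≠ 0 → P (Up (height l)) ≠ 1 →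
        cutMoment P (height l) 1 ≠ ⊤ ∧ cutMoment P (height (-l)) 1 ≠ ⊤ ∧
        ∃ v : Fin d → ℝ, ∑ i, l i * v i = 1 ∧
          (∀ᵐ t ∂P, (t ∈ Up (height l) ∨ t ∈ Up (height (-l))) ∧
            ∀ i, Tendsto (fun n : ℕ => (site t n i : ℝ) / height l (site t n)) atTop (𝓝 (v i))) ∧
          ∀ m : Fin d → ℝ,
            (∑ i, m i * v i ≠ 0 → P (Up (height m)) ≠ 0 ∧ P (Up (height m)) ≠ 1) ∧
            (∑ i, m i * v i = 0 → P (Up (height m)) = 0)) ∧
      ∀ F : Set (Fin d → ℝ), (∀ v : Fin d → ℝ, v ≠ 0 → ∃ f ∈ F, ∑ i, f i * v i ≠ 0) →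
        (∀ f ∈ F, P (Up (height f)) = 0 ∨ P (Up (height f)) = 1) →
          ∀ l : Fin d → ℝ, l ≠ 0 → P (Up (height l)) = 0 ∨ P (Up (height l)) = 1 := by
  have : NeZero d := ⟨by omega⟩
  refine ⟨exists_isAnnealed μ, fun P hP => ⟨fun l hl h0 h1 => ?_, fun F hF hzo l hl => ?_⟩⟩
  · obtain ⟨hmom, v, hv, hax, hcls⟩ := hP.axis_dichotomy hμ hd hl h0 h1
    have hdown := hP.both_sides hμ hd hl h0 h1
    refine ⟨hmom, (hP.exists_axis hμ hd (neg_ne_zero.2 hl) hdown (by rwa [neg_neg])).1,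
      v, hv, ?_, hcls⟩
    filter_upwards [hax] with t ht using ⟨ht.1, ht.2⟩
  · by_contra hne
    rw [not_or] at hne
    obtain ⟨-, v, hv, -, hcls⟩ := hP.axis_dichotomy hμ hd hl hne.1 hne.2
    have hv0 : v ≠ 0 := fun hz => by simp [hz] at hv
    obtain ⟨f, hf, hfv⟩ := hF v hv0
    obtain ⟨a, b⟩ := (hcls f).1 hfv
    rcases hzo f hf with h | h
    exacts [a h, b h]

end Vale.Agent.Results.P147.AxisDichotomy
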