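import Mathlib
import Vale.Agent.P147.MainArg
import Vale.Agent.P147.Bins
import Vale.Agent.P147.PhiSq
import Vale.Agent.P147.VelocityOne

/-!
# P147: linear range gives the directional zero-one law in every dimension `d ≥ 3`
-/

namespace Vale.Agent.Results.P147.LinearRangeZeroOne

open MeasureTheory Vale.Agent.P147

theorem result (d : ℕ) (hd : 3 ≤ d) (μ : Measure (Row d)) [IsProbabilityMeasure μ]
    (hμ : Elliptic μ) :
    (∃ P, IsAnnealed μ P) ∧ ∀ P, IsAnnealed μ P →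
      (∀ l : Fin d → ℝ, l ≠ 0 → P (LinEscFreq (height l)) ≠ 0 → P (Up (height l)) = 1) ∧
      (∀ v : Fin d → ℝ, v ≠ 0 → P (Vel v) ≠ 0 → P (Vel v) = 1) ∧
      ∃ v, ∀ᵐ t ∂P, ∀ w, t ∈ Vel w → w ≠ 0 → w = v := by
  have : NeZero d := ⟨by omega⟩
  have hCB : ∀ S : Setup d, meanSites S.μ S.h ≠ ⊤ → ChainBounds S := fun S hs =>
    ⟨S.bin_mass_le, S.trim_le hs, S.phi_sq_le hs⟩
  exact ⟨exists_isAnnealed μ, fun P hP =>
    ⟨fun l hl hlin => hP.up_height_eq_one_of_chainBounds hμ hd hCB hl hlin,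
      fun v hv hPv => hP.vel_eq_one_of_chainBounds hμ hd hCB hv hPv,
      hP.velocity_unique_of_chainBounds hμ hd hCB⟩⟩

end Vale.Agent.Results.P147.LinearRangeZeroOne
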