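import Mathlib
import Vale.Agent.P147.Rate

/-!
# P147: light, very heavy, or rarely backtracking regeneration gives the zero-one law
-/

namespace Vale.Agent.Results.P147.RegenerationZeroOne

open MeasureTheory Vale.Agent.P147
open scoped ENNReal

theorem result (d : ℕ) (hd : 3 ≤ d) (μ : Measure (Row d)) [IsProbabilityMeasure μ]
    (hμ : Elliptic μ) :
    (∃ P, IsAnnealed μ P) ∧ ∀ P, IsAnnealed μ P → ∀ l : Fin d → ℝ, l ≠ 0 →
      P (Up (height l)) ≠ 0 →
      (cutMoment P (height l) 2 ≠ ∞ ∨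
        (∃ α : ℝ, 0 < α ∧ α < 1 ∧ cutMoment P (height l) α = ∞) ∨
        ∃ C : ℝ, ∀ r : ℝ, 0 < r →
          P (Reach (-height l) r ∩ Up (height l)) ≤ ENNReal.ofReal (C / r ^ (12 * d))) →
      P (Up (height l)) = 1 := by
  have : NeZero d := ⟨by omega⟩
  exact ⟨exists_isAnnealed μ, fun P hP l hl hA hcase =>
    hP.up_eq_one_of_regen hμ hd hl hA hcase⟩

end Vale.Agent.Results.P147.RegenerationZeroOne
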